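import Vale.Agent.P281.H498.TL.Pull
import Vale.Agent.P281.H713.TZ.Iface

/-! P281, theorem TZ, row Z4: the pole condition on `Z`, in the charts of `Z`. -/

open scoped Manifold ContDiff Topology ComplexOrder
open Set Filter Vale.Agent.P272.K

noncomputable section

namespace Vale.Agent.P281.H498

open Vale.Agent.P281 Vale.Agent.P281.MF Vale.Agent.P281.ISO Vale.Agent.P281.H713.SA
open Vale.Agent.P281.H716 Vale.Agent.P281.H787

set_option linter.unusedSectionVars false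

variable {n p : ℕ} {X Z Y : Type}
  [TopologicalSpace X] [T2Space X] [ChartedSpace (Cm n) X] [IsManifold 𝓘(ℂ, Cm n) ω X]
  [TopologicalSpace Z] [ChartedSpace (Cm n) Z] [IsManifold 𝓘(ℂ, Cm n) ω Z]
  [TopologicalSpace Y] [ChartedSpace (Cm p) Y] [IsManifold 𝓘(ℂ, Cm p) ω Y]

/-- the components of an SNC divisor are determined by their restrictions -/
theorem inj_restr {j : Z → X} (hj : J.IsBigOpen (Cm n) j) {Δ : Set X → ℝ}
    (hΔ : J.IsSNC (Cm n) Δ) {Δ' : Set Z → ℝ} (hΔ' : J.IsSNC (Cm n) Δ')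
    (hres : J.IsRestriction j Δ Δ') {D₁ D₂ : Set X} (h1 : Δ D₁ ≠ 0) (h2 : Δ D₂ ≠ 0)
    (h : j ⁻¹' D₁ = j ⁻¹' D₂) : D₁ = D₂ := by
  classical
  by_contra hne
  have hpr : J.IsPrime (Cm n) (j ⁻¹' D₁) := hΔ'.2.1 _ (by rw [hres.1 _ h1]; exact h1)
  obtain ⟨z, hz, -⟩ := hpr.2.2.1
  have hg : ∀ D, ∃ g : X → ℂ, Δ D ≠ 0 → IsLocalEq (Cm n) D g (j z) := by
    intro D
    by_cases hD : Δ D = 0
    · exact ⟨0, fun h => absurd hD h⟩
    · obtain ⟨g, hg⟩ := (hΔ.2.1 D hD).2.1 (j z)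
      exact ⟨g, fun _ => hg⟩
  choose g hg using hg
  have hz1 : j z ∈ D₁ := hz
  have hz2 : j z ∈ D₂ := by
    have : z ∈ j ⁻¹' D₂ := h ▸ hz
    exact this
  obtain ⟨ξ, hξ⟩ := hΔ.2.2.2 (j z) g (fun D hD _ => hg D hD) fun D => if D.1 = D₁ then 1 else 0
  have e1 : J.dif (Cm n) (g D₁) (j z) ξ = 1 := by
    have := congrFun hξ ⟨D₁, h1, hz1⟩
    simpa using this
  have e2 : J.dif (Cm n) (g D₂) (j z) ξ = 0 := by
    have := congrFun hξ ⟨D₂, h2, hz2⟩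
    simpa [Ne.symm hne] using this
  have hmem : ∀ x ∈ range j, (x ∈ D₁ ↔ x ∈ D₂) := by
    rintro x ⟨w, rfl⟩
    have := congrArg (fun S : Set Z => w ∈ S) h
    exact (iff_of_eq this : _)
  have h3 : IsLocalEq (Cm n) D₂ (g D₁) (j z) := by
    obtain ⟨V, hV, hzV, k1, k2, k3⟩ := hg D₁ h1
    refine ⟨V ∩ range j, hV.inter hj.2.1.isOpen_range, ⟨hzV, mem_range_self z⟩,
      fun w hw => k1 w hw.1, fun w hw => (hmem w hw.2).symm.trans (k2 w hw.1), ?_⟩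
    rintro w ⟨hw, hwV, hwj⟩
    have k4 := k3 ⟨(hmem w hwj).2 hw, hwV⟩
    rw [mem_closure_iff_nhds] at k4 ⊢
    intro t ht
    obtain ⟨y, ⟨hyt, hyj⟩, hyD, hyd⟩ := k4 _ (inter_mem ht (hj.2.1.isOpen_range.mem_nhds hwj))
    exact ⟨y, hyt, (hmem y hyj).1 hyD, hyd⟩
  obtain ⟨u, hu, -, hue⟩ := leq_unit (hg D₂ h2) h3
  have h4 : J.dif (Cm n) (g D₁) (j z) = J.dif (Cm n) (fun w => g D₂ w * u w) (j z) := by
    unfold J.dif
    exact Filter.EventuallyEq.mfderiv_eq hue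
  have h5 := dif_mul (E := Cm n) (IsLocalEq.holAt (hg D₂ h2)) hu ((hg D₂ h2).mem_iff.1 hz2)
  have h6 : J.dif (Cm n) (g D₁) (j z) ξ = 0 := by
    rw [h4]
    have h7 := congrArg (fun T : Cm n →L[ℂ] ℂ => T ξ) h5
    refine h7.trans ?_
    show u (j z) * J.dif (Cm n) (g D₂) (j z) ξ = 0
    rw [e2, mul_zero]
  rw [e1] at h6
  exact one_ne_zero h6

/-- change of coordinates for the pulled back tensor -/
theorem tT_coord {f : Z → Y} (m : ℕ) {c c' : Z → Cm n} {z : Z}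
    (hc' : IsUnit (dV (Cm n) c' z)) (I : Fin (m * p) → Fin n) :
    tT f m c I z = ∑ L : Fin (m * p) → Fin n,
      (∏ a, ((dV (Cm n) c' z).comp (Ring.inverse (dV (Cm n) c z))) (Pi.single (I a) 1) (L a)) *
        tT f m c' L z := by
  unfold tT
  rw [← tq_comp_right]
  congr 1
  have h1 : (Ring.inverse (dV (Cm n) c' z)) * (dV (Cm n) c' z) = 1 :=
    Ring.inverse_mul_cancel _ hc'
  have h2 : (Ring.inverse (dV (Cm n) c' z)).comp
      ((dV (Cm n) c' z).comp (Ring.inverse (dV (Cm n) c z))) = Ring.inverse (dV (Cm n) c z) := by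
    show Ring.inverse (dV (Cm n) c' z) * (dV (Cm n) c' z * Ring.inverse (dV (Cm n) c z)) = _
    rw [← mul_assoc, h1, one_mul]
  rw [ContinuousLinearMap.comp_assoc, h2]

/-- **Row Z4** of theorem TZ -/
theorem poleZPart : H713.TZ.PoleZPart := by
  classical
  intro n p X Z Y _ _ _ _ _ _ _ _ _ _ j hj f hf Δ hΔ Δ' hΔ' hres 𝒢 m K hK σ hσ
  have hs' := JB.snc hΔ'
  obtain ⟨hj0, hj₁, hj₂, -⟩ := id hj
  have hjh : ∀ z, HolM (Cm n) (Cm n) j z := fun z => hj0 z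
  refine ⟨fun D' => ⌊(m : ℝ) * Δ' D'⌋₊, fun D' =>
    Nat.floor_le (mul_nonneg (Nat.cast_nonneg m) (snc01 hs' D').1), ?_⟩
  intro z₀ T e hT he I
  set K' : Set Z → ℕ := fun D' => ⌊(m : ℝ) * Δ' D'⌋₊ with hK'
  have hKne : ∀ D, K D ≠ 0 → Δ D ≠ 0 := by
    intro D hD h0
    have h1 := hK D
    rw [h0, mul_zero] at h1
    have h2 : (0 : ℝ) < K D := by exact_mod_cast Nat.pos_of_ne_zero hD
    linarith
  have hKK' : ∀ D, K D ≠ 0 → K D ≤ K' (j ⁻¹' D) := by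
    intro D hD
    refine Nat.le_floor ?_
    rw [hres.1 D (hKne D hD)]
    exact hK D
  obtain ⟨T₀, g₀, hT₀, hg₀, ha₀⟩ := hσ.pole (j z₀)
  choose a ha hae using fun L : Fin (m * p) → Fin n => ha₀ fun r c => L (finProdFinEquiv (r, c))
  have hfin : {D | K D ≠ 0}.Finite := T₀.finite_toSet.subset fun D hD => hT₀ D hD
  set T₁ : Finset (Set X) := hfin.toFinset with hT₁
  have hmem : ∀ D, D ∈ T₁ ↔ K D ≠ 0 := fun D => hfin.mem_toFinset
  have hpreT : ∀ D, K D ≠ 0 → j ⁻¹' D ∈ T := fun D hD =>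
    hT _ (Nat.pos_iff_ne_zero.1 (lt_of_lt_of_le (Nat.pos_of_ne_zero hD) (hKK' D hD)))
  have hjsurj : ∀ z, Function.Surjective (dM (Cm n) (Cm n) j z) := fun z =>
    (LinearMap.injective_iff_surjective (f := (dM (Cm n) (Cm n) j z : Cm n →ₗ[ℂ] Cm n))).1 (hj₂ z)
  have hu : ∀ D, ∃ u : Z → ℂ, K D ≠ 0 → HolV (Cm n) u z₀ ∧
      ∀ᶠ z in 𝓝 z₀, e (j ⁻¹' D) z = g₀ D (j z) * u z := by
    intro D
    by_cases hD : K D = 0
    · exact ⟨0, fun h0 => absurd hD h0⟩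
    · obtain ⟨u, h1, -, h2⟩ := leq_unit
        (isLocalEq_comp (E := Cm n) hjh hj₁.isOpenMap hjsurj (hg₀ D (hT₀ D hD)))
        (he _ (hpreT D hD))
      exact ⟨u, fun _ => ⟨h1, h2⟩⟩
  choose u hu using hu
  set R : Z → ℂ := fun z => (∏ D' ∈ T \ T₁.image (fun D => j ⁻¹' D), e D' z ^ K' D') *
    ∏ D ∈ T₁, (u D z ^ K D * e (j ⁻¹' D) z ^ (K' (j ⁻¹' D) - K D)) with hR
  have hinj : InjOn (fun D => j ⁻¹' D) (T₁ : Set (Set X)) := fun D₁ h₁ D₂ h₂ h =>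
    inj_restr hj hΔ hΔ' hres (hKne _ ((hmem _).1 h₁)) (hKne _ ((hmem _).1 h₂)) h
  have hsub : T₁.image (fun D => j ⁻¹' D) ⊆ T := by
    intro D' hD'
    obtain ⟨D, hD, rfl⟩ := Finset.mem_image.1 hD'
    exact hpreT D ((hmem D).1 hD)
  have hRh : HolV (Cm n) R z₀ := by
    refine HolV.mul (HolV.prod fun D' hD' => ?_) (HolV.prod fun D hD => HolV.mul ?_ ?_)
    · exact HolV.pow (IsLocalEq.holAt (he D' (Finset.mem_sdiff.1 hD').1)) _
    · exact (hu D ((hmem D).1 hD)).1.pow _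
    · exact HolV.pow (IsLocalEq.holAt (he _ (hpreT D ((hmem D).1 hD)))) _
  have hRe : ∀ᶠ z in 𝓝 z₀, ∏ D' ∈ T, e D' z ^ K' D' = (∏ D ∈ T₀, g₀ D (j z) ^ K D) * R z := by
    have h1 : ∀ᶠ z in 𝓝 z₀, ∀ D ∈ T₁, e (j ⁻¹' D) z = g₀ D (j z) * u D z := by
      rw [Filter.eventually_all_finset]
      exact fun D hD => (hu D ((hmem D).1 hD)).2
    filter_upwards [h1] with z h2
    have h3 : ∏ D ∈ T₀, g₀ D (j z) ^ K D = ∏ D ∈ T₁, g₀ D (j z) ^ K D := by
      symm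
      refine Finset.prod_subset (fun D hD => hT₀ D ((hmem D).1 hD)) fun D _ hD => ?_
      have h4 : K D = 0 := by
        by_contra h5
        exact hD ((hmem D).2 h5)
      rw [h4, pow_zero]
    rw [← Finset.prod_sdiff hsub, Finset.prod_image hinj, h3]
    have h4 : ∏ D ∈ T₁, e (j ⁻¹' D) z ^ K' (j ⁻¹' D) = (∏ D ∈ T₁, g₀ D (j z) ^ K D) *
        ∏ D ∈ T₁, (u D z ^ K D * e (j ⁻¹' D) z ^ (K' (j ⁻¹' D) - K D)) := by
      rw [← Finset.prod_mul_distrib]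
      refine Finset.prod_congr rfl fun D hD => ?_
      have h5 := hKK' D ((hmem D).1 hD)
      calc e (j ⁻¹' D) z ^ K' (j ⁻¹' D)
          = e (j ⁻¹' D) z ^ K D * e (j ⁻¹' D) z ^ (K' (j ⁻¹' D) - K D) := by
            rw [← pow_add, Nat.add_sub_cancel' h5]
        _ = (g₀ D (j z) * u D z) ^ K D * e (j ⁻¹' D) z ^ (K' (j ⁻¹' D) - K D) := by
            rw [← h2 D hD]
        _ = _ := by ring
    rw [h4, hR]
    ring
  -- the coordinates
  set c : Z → Cm n := fun w => (chartAt (Cm n) z₀ : Z → Cm n) w with hc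
  set c' : Z → Cm n := fun w => (chartAt (Cm n) (j z₀) : Chart n X) (j w) with hc'
  have hAt : At (chartAt (Cm n) (j z₀) : Chart n X) (j z₀) := AMP.at_chartAt (j z₀)
  have hch : HolV (Cm n) c z₀ := HolV.chart (mem_chart_source _ _)
  have hcu : IsUnit (dV (Cm n) c z₀) := isUnit_dV_chart (E := Cm n) (mem_chart_source _ _)
  have hc'h : HolV (Cm n) c' z₀ := holV_ej hjh hAt
  have hB := holV_quot hc'h hch hcu
  have hBe : ∀ i k : Fin n, HolV (Cm n) (fun z => ((dV (Cm n) c' z).comp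
      (Ring.inverse (dV (Cm n) c z))) (Pi.single i 1) k) z₀ := by
    intro i k
    have hG : ContDiff ℂ ω fun B : Cm n →L[ℂ] Cm n => B (Pi.single i 1) k :=
      ((ContinuousLinearMap.proj (R := ℂ) (φ := fun _ : Fin n => ℂ) k).comp
        (ContinuousLinearMap.apply ℂ (Cm n) (Pi.single i 1 : Cm n))).contDiff
    exact HolV.comp_contDiff (G := fun B : Cm n →L[ℂ] Cm n => B (Pi.single i 1) k)
      hG.contDiffAt hB
  set I' : Fin (m * p) → Fin n := fun t => I (finProdFinEquiv.symm t).1 (finProdFinEquiv.symm t).2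
    with hI'
  have hmin : ∀ z, H713.TL.minors (n := n) (p := p) m (id : Z → Z) f z₀ z I = tT f m c I' z := by
    intro z
    unfold H713.TL.minors tT tq mK
    refine Finset.prod_congr rfl fun r _ => ?_
    congr 1
    ext a' b'
    simp only [hI', Equiv.symm_apply_apply]
    rfl
  refine ⟨fun z => (∑ L : Fin (m * p) → Fin n, (∏ b, ((dV (Cm n) c' z).comp
    (Ring.inverse (dV (Cm n) c z))) (Pi.single (I' b) 1) (L b)) * a L (j z)) * R z, ?_, ?_⟩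
  · exact (HolV.sum fun L _ => (HolV.prod fun b _ => hBe (I' b) (L b)).mul
      (HolV.comp (ha L) (hjh z₀))).mul hRh
  · have hjc : Tendsto j (𝓝 z₀) (𝓝 (j z₀)) := (hjh z₀).continuousAt
    filter_upwards [hRe, hjc.eventually (eventually_all.2 hae),
      hjc.eventually ((chartAt (Cm n) (j z₀)).open_source.mem_nhds hAt.2)] with z k1 k2 k3 hzG hne
    have hz' : At (chartAt (Cm n) (j z₀) : Chart n X) (j z) := ⟨hAt.1, k3⟩
    rw [k1] at hne ⊢
    have k4 := left_ne_zero_of_mul hne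
    rw [hmin z, tT_coord m (c := c) (c' := c') (isUnit_ej hjh hj₂ hz') I', ← mul_assoc]
    congr 1
    rw [Finset.mul_sum, Finset.sum_mul]
    refine Finset.sum_congr rfl fun L _ => ?_
    rw [← k2 L z rfl hzG k4]
    show σ (f z) * ((∏ b, ((dV (Cm n) c' z).comp (Ring.inverse (dV (Cm n) c z)))
      (Pi.single (I' b) 1) (L b)) * tT f m c' L z) * ∏ D ∈ T₀, g₀ D (j z) ^ K D = _ *
      (σ (f z) * tT f m c' L z * ∏ D ∈ T₀, g₀ D (j z) ^ K D)
    ring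

end Vale.Agent.P281.H498
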